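import Vale.Agent.P057.Core

open Finset

namespace Vale.Agent.P057

/-- even residues in the middle third, odd residues in the middle two ninths -/
def Blk (P u : ℤ) : Prop := -P < 3 * u ∧ 3 * u < P ∧ (u % 2 = 0 ∨ (-(2 * P) < 9 * u ∧ 9 * u < 2 * P))

theorem small_mul {P j : ℤ} (hP : 0 < P) (h1 : -(2 * P) < P * j) (h2 : P * j < 2 * P) :
    j = -1 ∨ j = 0 ∨ j = 1 := by
  have a : j < 2 := by nlinarith
  have b : -2 < j := by nlinarith
  omega

theorem blk_types {P a b c d : ℤ} (hP : P % 2 = 1) (ha : Blk P a) (hb : Blk P b) (hc : Blk P c)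
    (hd : Blk P d) (h1 : P ∣ a - 2 * b + c) (h2 : P ∣ b - 2 * c + d) :
    (c = 2 * b - a ∧ d = 3 * b - 2 * a) ∨ b % 2 + c % 2 + 1 ≤ a % 2 + d % 2 := by
  obtain ⟨j, hj⟩ := h1
  obtain ⟨l, hl⟩ := h2
  unfold Blk at ha hb hc hd
  have P0 : 0 < P := by omega
  have t1 := small_mul (j := j) P0 (by omega) (by omega)
  have t2 := small_mul (j := l) P0 (by omega) (by omega)
  rcases t1 with rfl | rfl | rfl <;> rcases t2 with rfl | rfl | rfl <;> omega

theorem blk_pot {P a b c d r : ℤ} (hP : P % 2 = 1) (hr : 0 ≤ r) (hrP : 3 * (r + 1) ≤ P)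
    (ha : Blk P a) (hb : Blk P b) (hc : Blk P c)
    (hd : Blk P d) (h1 : P ∣ a - 2 * b + c) (h2 : P ∣ b - 2 * c + d) :
    b ^ 2 + P ^ 2 * (b % 2) + (c ^ 2 + P ^ 2 * (c % 2)) ≤
      a ^ 2 + P ^ 2 * (a % 2) + (d ^ 2 + P ^ 2 * (d % 2)) ∧
    (a ^ 2 + P ^ 2 * (a % 2) + (d ^ 2 + P ^ 2 * (d % 2)) <
      b ^ 2 + P ^ 2 * (b % 2) + (c ^ 2 + P ^ 2 * (c % 2)) + 4 * (r + 1) ^ 2 →
      -r ≤ b - a ∧ b - a ≤ r) := by
  rcases blk_types hP ha hb hc hd h1 h2 with ⟨e1, e2⟩ | h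
  · have p1 : c % 2 = a % 2 := by omega
    have p2 : d % 2 = b % 2 := by omega
    rw [p1, p2, e1, e2]
    refine ⟨by nlinarith [sq_nonneg (b - a)], fun h => ?_⟩
    have h3 : (b - a) ^ 2 < (r + 1) ^ 2 := by nlinarith
    have h4 := abs_lt_of_sq_lt_sq' h3 (by omega)
    omega
  · have b1 : 9 * b ^ 2 ≤ P ^ 2 := by nlinarith [hb.1, hb.2.1]
    have c1 : 9 * c ^ 2 ≤ P ^ 2 := by nlinarith [hc.1, hc.2.1]
    have r1 : 9 * (r + 1) ^ 2 ≤ P ^ 2 := by nlinarith
    have k : P ^ 2 * (b % 2 + c % 2 + 1) ≤ P ^ 2 * (a % 2 + d % 2) :=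
      mul_le_mul_of_nonneg_left h (sq_nonneg P)
    have := sq_nonneg a
    have := sq_nonneg d
    have := sq_nonneg (r + 1)
    exact ⟨by nlinarith, fun h => absurd h (by nlinarith)⟩

open Classical in
theorem blk_card (P : ℕ) [NeZero P] :
    5 * P ≤ 9 * (univ.filter fun x : ZMod P => Blk P x.valMinAbs).card + 18 := by
  have P0 : 0 < P := NeZero.pos P
  obtain ⟨a, ha⟩ : ∃ a : ℕ, a = (P - 1) / 6 := ⟨_, rfl⟩
  obtain ⟨b, hb⟩ : ∃ b : ℕ, b = (2 * P + 8) / 18 := ⟨_, rfl⟩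
  obtain ⟨T, hT⟩ : ∃ T : Finset ℤ, T = (Icc (-(a : ℤ)) a).image (fun m => 2 * m) ∪
      (Ico (-(b : ℤ)) b).image (fun m => 2 * m + 1) := ⟨_, rfl⟩
  have t1 : T.card = 2 * a + 1 + 2 * b := by
    rw [hT, card_union_of_disjoint, card_image_of_injective, card_image_of_injective]
    · simp only [Int.card_Icc, Int.card_Ico]
      omega
    · intro x y h
      simp only at h
      omega
    · intro x y h
      simp only at h
      omega
    · rw [disjoint_left]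
      intro u h1 h2
      simp only [mem_image] at h1 h2
      obtain ⟨x, -, hx⟩ := h1
      obtain ⟨y, -, hy⟩ := h2
      omega
  have t2 : ∀ u ∈ T, Blk P u := by
    intro u hu
    simp only [hT, mem_union, mem_image, mem_Icc, mem_Ico] at hu
    unfold Blk
    rcases hu with ⟨x, h, rfl⟩ | ⟨x, h, rfl⟩ <;> omega
  have t3 : ∀ u ∈ T, (u : ZMod P).valMinAbs = u := by
    intro u hu
    have := t2 u hu
    unfold Blk at this
    rw [ZMod.valMinAbs_spec]
    exact ⟨rfl, by constructor <;> omega⟩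
  have t4 : T.card ≤ (univ.filter fun x : ZMod P => Blk P x.valMinAbs).card := by
    refine card_le_card_of_injOn (fun u => (u : ZMod P)) (fun u hu => ?_) fun u hu v hv e => ?_
    · have hu' : u ∈ T := hu
      simp only [coe_filter, mem_univ, true_and, Set.mem_setOf_eq]
      rw [t3 u hu']
      exact t2 u hu'
    · rw [← t3 u hu, ← t3 v hv]
      exact congrArg ZMod.valMinAbs e
  omega

theorem core2 (d L N : ℕ) (hd : 1 ≤ d) (hL : 2 ≤ L) (hN : N ≤ L ^ d) :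
    ∃ A : Finset ℕ, A ⊆ Icc 1 N ∧
      (∀ a k : ℕ, 0 < k → ¬ (a ∈ A ∧ a + k ∈ A ∧ a + 2 * k ∈ A ∧ a + 3 * k ∈ A)) ∧
      (N : ℝ) * (5 / 9) ^ d ≤ 34 * d * L ^ 2 * A.card := by
  classical
  obtain ⟨r, hr⟩ : ∃ r, r = N + 8 * d := ⟨_, rfl⟩
  obtain ⟨P, hP, h1, h2⟩ := Nat.exists_prime_lt_and_le_two_mul ((2 * r + 1) * L) (by positivity)
  have h3 : (2 * r + 1) * 2 ≤ (2 * r + 1) * L := Nat.mul_le_mul_left _ hL
  haveI := Fact.mk hP
  have odd : P % 2 = 1 := hP.eq_two_or_odd.resolve_left (by omega)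
  have nn : ∀ x : ZMod P, 0 ≤ x.valMinAbs ^ 2 + (P : ℤ) ^ 2 * (x.valMinAbs % 2) := fun x => by
    have : 0 ≤ x.valMinAbs % 2 := by omega
    positivity
  obtain ⟨A, a1, a2, a3⟩ := core (univ.filter fun x : ZMod P => Blk P x.valMinAbs)
    ((Icc (-(r : ℤ)) r).image fun u : ℤ => (u : ZMod P))
    (fun x => (x.valMinAbs ^ 2 + (P : ℤ) ^ 2 * (x.valMinAbs % 2)).toNat) (2 * P ^ 2)
    (2 * (r + 1) ^ 2) d N (by positivity)
    (fun x hx => by
      have hb := (mem_filter.1 hx).2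
      have b1 : 9 * x.valMinAbs ^ 2 ≤ (P : ℤ) ^ 2 := by nlinarith [hb.1, hb.2.1]
      have b2 : (P : ℤ) ^ 2 * (x.valMinAbs % 2) ≤ (P : ℤ) ^ 2 * 1 :=
        mul_le_mul_of_nonneg_left (by omega) (sq_nonneg _)
      rw [Int.toNat_le]
      push_cast
      nlinarith [sq_nonneg x.valMinAbs])
    (fun x y h0 h1 h2 h3 => by
      have k := blk_pot (P := P) (r := r) (by omega) (by omega) (by omega) (mem_filter.1 h0).2
        (mem_filter.1 h1).2 (mem_filter.1 h2).2 (mem_filter.1 h3).2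
        (by
          rw [← ZMod.intCast_zmod_eq_zero_iff_dvd]
          push_cast
          simp only [ZMod.coe_valMinAbs, nsmul_eq_mul]
          push_cast
          ring)
        (by
          rw [← ZMod.intCast_zmod_eq_zero_iff_dvd]
          push_cast
          simp only [ZMod.coe_valMinAbs, nsmul_eq_mul]
          push_cast
          ring)
      have n0 := Int.toNat_of_nonneg (nn x)
      have n1 := Int.toNat_of_nonneg (nn (x + y))
      have n2 := Int.toNat_of_nonneg (nn (x + 2 • y))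
      have n3 := Int.toNat_of_nonneg (nn (x + 3 • y))
      refine ⟨by zify; rw [n0, n1, n2, n3]; exact k.1, fun h => ?_⟩
      zify at h
      rw [n0, n1, n2, n3] at h
      have k2 := k.2 (by linarith)
      refine mem_image.2 ⟨(x + y).valMinAbs - x.valMinAbs, mem_Icc.2 k2, ?_⟩
      push_cast
      ring)
    (fun k k0 kN x y h => by
      have : (k : ZMod P) ≠ 0 := by
        rw [Ne, ZMod.natCast_eq_zero_iff]
        exact Nat.not_dvd_of_pos_of_lt k0 (by omega)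
      rw [nsmul_eq_mul, nsmul_eq_mul] at h
      exact mul_left_cancel₀ this h)
    (by
      rw [ZMod.card]
      have e : ((Icc (-(r : ℤ)) r).image fun u : ℤ => (u : ZMod P)).card ≤ 2 * r + 1 := by
        refine card_image_le.trans ?_
        rw [Int.card_Icc]
        omega
      calc N * _ ^ d ≤ L ^ d * (2 * r + 1) ^ d := Nat.mul_le_mul hN (Nat.pow_le_pow_left e d)
        _ = ((2 * r + 1) * L) ^ d := by rw [mul_pow, mul_comm]
        _ < P ^ d := Nat.pow_lt_pow_left h1 (by omega))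
  refine ⟨A, a1, a2, ?_⟩
  rw [ZMod.card] at a3
  have c1 := blk_card P
  generalize (univ.filter fun x : ZMod P => Blk P x.valMinAbs).card = s at a3 c1
  have w1 : d * (2 * P ^ 2) / (2 * (r + 1) ^ 2) + 1 ≤ 17 * d * L ^ 2 := by
    have q1 : P ≤ 4 * (r + 1) * L := by nlinarith
    have q2 : P ^ 2 ≤ (4 * (r + 1) * L) ^ 2 := Nat.pow_le_pow_left q1 2
    have q3 : d * (2 * P ^ 2) / (2 * (r + 1) ^ 2) ≤ 16 * d * L ^ 2 := by
      refine Nat.div_le_of_le_mul ?_
      calc d * (2 * P ^ 2) ≤ d * (2 * (4 * (r + 1) * L) ^ 2) := by gcongr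
        _ = _ := by ring
    have q4 : 1 ≤ d * L ^ 2 := Nat.one_le_iff_ne_zero.2 (by positivity)
    nlinarith
  have a4 : N * s ^ d ≤ P ^ d * (17 * d * L ^ 2 * A.card) :=
    a3.trans (Nat.mul_le_mul_left _ (Nat.mul_le_mul_right _ w1))
  have a5 : (N : ℝ) * s ^ d ≤ P ^ d * (17 * d * L ^ 2 * A.card) := by exact_mod_cast a4
  have P0 : (0 : ℝ) < P := by exact_mod_cast hP.pos
  have P1 : (8 : ℝ) * d ≤ P := by exact_mod_cast (show 8 * d ≤ P by omega)
  have d1 : (1 : ℝ) ≤ d := by exact_mod_cast hd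
  have c2 : (5 : ℝ) * P ≤ 9 * s + 18 := by exact_mod_cast c1
  have u1 : 4 / (P : ℝ) ≤ 1 / 2 := by
    rw [div_le_div_iff₀ P0 (by norm_num)]
    linarith
  have c3 : 5 / 9 * P * (1 + -(4 / P)) ≤ (s : ℝ) := by
    have : 5 / 9 * (P : ℝ) * (1 + -(4 / P)) = 5 / 9 * P - 20 / 9 := by field_simp; ring
    rw [this]
    linarith
  have c4 : 1 + (d : ℝ) * -(4 / P) ≤ (1 + -(4 / P)) ^ d := one_add_mul_le_pow (by linarith) d
  have c5 : (d : ℝ) * (4 / P) ≤ 1 / 2 := by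
    rw [← mul_div_assoc, div_le_div_iff₀ P0 (by norm_num)]
    linarith
  have c6 : (5 / 9 * (P : ℝ) * (1 + -(4 / P))) ^ d ≤ (s : ℝ) ^ d :=
    pow_le_pow_left₀ (mul_nonneg (by positivity) (by linarith)) c3 d
  rw [mul_pow, mul_pow] at c6
  have c7 : (5 / 9) ^ d * (P : ℝ) ^ d * (1 / 2) ≤ (s : ℝ) ^ d :=
    le_trans (mul_le_mul_of_nonneg_left (by linarith) (by positivity)) c6
  have c8 : (P : ℝ) ^ d * (N * (5 / 9) ^ d) ≤ P ^ d * (34 * d * L ^ 2 * A.card) := by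
    have := mul_le_mul_of_nonneg_left c7 (Nat.cast_nonneg N : (0 : ℝ) ≤ N)
    nlinarith
  exact le_of_mul_le_mul_left c8 (by positivity)

end Vale.Agent.P057
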