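import Vale.Agent.P057.Core3

open Finset

namespace Vale.Agent.P057

/-- the two dimensional block -/
def Bk (m e h s w : ℤ) : Prop :=
  0 ≤ s ∧ s < 14 * m ∧ -(8 * m) < 2 * w ∧ 2 * w < 8 * m ∧
    ((s + e < 8 * m ∧ -(2 * m + s) < 2 * w ∧ 2 * w < 2 * m + s) ∨
      (8 * m + 8 ≤ s ∧ -(28 * m - 2 * s) < 2 * w ∧ 2 * w < 28 * m - 2 * s ∧
        ((w % 2 = h % 2 ∧ w ≤ s - 6 * m) ∨ (w % 2 ≠ h % 2 ∧ -(s - 6 * m) ≤ w))))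

/-- the second coordinate -/
def tt (m h s w : ℤ) : ℤ := if s < 8 * m then 2 * w else w + h

theorem small_mul3 {P j : ℤ} (hP : 0 < P) (h1 : -(3 * P) < P * j) (h2 : P * j < 3 * P) :
    j = -2 ∨ j = -1 ∨ j = 0 ∨ j = 1 ∨ j = 2 := by
  have a : j < 3 := by nlinarith
  have b : -3 < j := by nlinarith
  omega

theorem bk_tt {m e h s w : ℤ} (he : 0 ≤ e) (hb : Bk m e h s w) :
    (s + e < 8 * m ∧ -(2 * m + s) < 2 * w ∧ 2 * w < 2 * m + s ∧ tt m h s w = 2 * w) ∨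
      (8 * m + 8 ≤ s ∧ -(28 * m - 2 * s) < 2 * w ∧ 2 * w < 28 * m - 2 * s ∧
        ((w % 2 = h % 2 ∧ w ≤ s - 6 * m) ∨ (w % 2 ≠ h % 2 ∧ -(s - 6 * m) ≤ w)) ∧
        tt m h s w = w + h) := by
  unfold tt
  rcases hb.2.2.2.2 with h | h
  · exact Or.inl ⟨h.1, h.2.1, h.2.2, if_pos (by omega)⟩
  · exact Or.inr ⟨h.1, h.2.1, h.2.2.1, h.2.2.2, if_neg (by omega)⟩

theorem bk_down {m e h s1 w1 s2 w2 s3 w3 : ℤ} (he : 0 ≤ e) (hm : 2 ≤ m) (h1 : 16 * m ≤ 2 * h + 1)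
    (h2 : 2 * h + 1 < 16 * m + 16) (ha : Bk m e h s1 w1) (hb : Bk m e h s2 w2)
    (hc : Bk m e h s3 w3) (hs : s1 + s3 - 2 * s2 = -(2 * h + 1))
    (ht : 2 * h + 1 ∣ tt m h s1 w1 + tt m h s3 w3 - 2 * tt m h s2 w2) : False := by
  obtain ⟨l, hl⟩ := ht
  have ta := bk_tt he ha
  have tb := bk_tt he hb
  have tc := bk_tt he hc
  obtain ⟨a1, a2, a3, a4, -⟩ := ha
  obtain ⟨b1, b2, b3, b4, -⟩ := hb
  obtain ⟨c1, c2, c3, c4, -⟩ := hc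
  generalize tt m h s1 w1 = t1 at *
  generalize tt m h s2 w2 = t2 at *
  generalize tt m h s3 w3 = t3 at *
  have t := small_mul3 (P := 2 * h + 1) (j := l) (by omega) (by omega) (by omega)
  rcases tb with tb | ⟨b5, b6, b7, -, b8⟩
  · omega
  · rcases ta with ta | ta <;> rcases tc with tc | tc <;>
      rcases t with rfl | rfl | rfl | rfl | rfl <;> omega

theorem bk_flat {m e h s1 w1 s2 w2 s3 w3 : ℤ} (he : 0 ≤ e) (hm : 2 ≤ m) (h1 : 16 * m ≤ 2 * h + 1)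
    (h2 : 2 * h + 1 < 16 * m + 16) (ha : Bk m e h s1 w1) (hb : Bk m e h s2 w2)
    (hc : Bk m e h s3 w3) (hs : s1 + s3 - 2 * s2 = 0)
    (ht : 2 * h + 1 ∣ tt m h s1 w1 + tt m h s3 w3 - 2 * tt m h s2 w2) :
    (w1 + w3 = 2 * w2 ∧ (tt m h s2 w2 - tt m h s1 w1 = w2 - w1 ∨
      tt m h s2 w2 - tt m h s1 w1 = 2 * (w2 - w1))) ∨ e ≤ s1 - s3 ∨ e ≤ s3 - s1 := by
  obtain ⟨l, hl⟩ := ht
  have ta := bk_tt he ha
  have tb := bk_tt he hb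
  have tc := bk_tt he hc
  obtain ⟨a1, a2, a3, a4, -⟩ := ha
  obtain ⟨b1, b2, b3, b4, -⟩ := hb
  obtain ⟨c1, c2, c3, c4, -⟩ := hc
  generalize tt m h s1 w1 = t1 at *
  generalize tt m h s2 w2 = t2 at *
  generalize tt m h s3 w3 = t3 at *
  have t := small_mul3 (P := 2 * h + 1) (j := l) (by omega) (by omega) (by omega)
  rcases ta with ⟨a5, -, -, a6⟩ | ⟨a5, -, -, -, a6⟩ <;>
    rcases tc with ⟨c5, -, -, c6⟩ | ⟨c5, -, -, -, c6⟩ <;>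
    rcases tb with ⟨b5, -, -, b6⟩ | ⟨b5, -, -, -, b6⟩ <;>
    rcases t with rfl | rfl | rfl | rfl | rfl <;> omega

theorem bk_pot {m e h A r s1 w1 s2 w2 s3 w3 : ℤ} (he : 0 ≤ e) (hm : 2 ≤ m)
    (h1 : 16 * m ≤ 2 * h + 1) (h2 : 2 * h + 1 < 16 * m + 16) (hA : 1 ≤ A)
    (hAe : 200 * m ^ 2 ≤ A * e ^ 2) (hr : 0 ≤ r) (hrm : r + 1 ≤ m)
    (ha : Bk m e h s1 w1) (hb : Bk m e h s2 w2) (hc : Bk m e h s3 w3)
    (hs : 2 * h + 1 ∣ s1 + s3 - 2 * s2)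
    (ht : 2 * h + 1 ∣ tt m h s1 w1 + tt m h s3 w3 - 2 * tt m h s2 w2) :
    2 * (A * s2 ^ 2 + w2 ^ 2) ≤ A * s1 ^ 2 + w1 ^ 2 + (A * s3 ^ 2 + w3 ^ 2) ∧
    (A * s1 ^ 2 + w1 ^ 2 + (A * s3 ^ 2 + w3 ^ 2) < 2 * (A * s2 ^ 2 + w2 ^ 2) + 2 * (r + 1) ^ 2 →
      (-r ≤ s2 - s1 ∧ s2 - s1 ≤ r) ∧ -(2 * r) ≤ tt m h s2 w2 - tt m h s1 w1 ∧
        tt m h s2 w2 - tt m h s1 w1 ≤ 2 * r) := by
  obtain ⟨j, hj⟩ := hs
  have b1 : w2 ^ 2 ≤ 16 * m ^ 2 := by nlinarith [hb.2.2.1, hb.2.2.2.1]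
  have r1 : (r + 1) ^ 2 ≤ m ^ 2 := pow_le_pow_left₀ (by omega) hrm 2
  have big : 34 * m ^ 2 ≤ A * (s1 ^ 2 + s3 ^ 2 - 2 * s2 ^ 2) →
      2 * (A * s2 ^ 2 + w2 ^ 2) + 2 * (r + 1) ^ 2 ≤
        A * s1 ^ 2 + w1 ^ 2 + (A * s3 ^ 2 + w3 ^ 2) := fun hh => by
    nlinarith [sq_nonneg w1, sq_nonneg w3]
  have fin : 34 * m ^ 2 ≤ A * (s1 ^ 2 + s3 ^ 2 - 2 * s2 ^ 2) →
      2 * (A * s2 ^ 2 + w2 ^ 2) ≤ A * s1 ^ 2 + w1 ^ 2 + (A * s3 ^ 2 + w3 ^ 2) ∧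
      (A * s1 ^ 2 + w1 ^ 2 + (A * s3 ^ 2 + w3 ^ 2) < 2 * (A * s2 ^ 2 + w2 ^ 2) + 2 * (r + 1) ^ 2 →
        (-r ≤ s2 - s1 ∧ s2 - s1 ≤ r) ∧ -(2 * r) ≤ tt m h s2 w2 - tt m h s1 w1 ∧
          tt m h s2 w2 - tt m h s1 w1 ≤ 2 * r) := fun hh =>
    ⟨by linarith [big hh, sq_nonneg (r + 1)], fun hlt => absurd hlt (not_lt.2 (big hh))⟩
  have t := small_mul3 (P := 2 * h + 1) (j := j) (by omega)
    (by linarith [ha.1, hc.1, hb.2.1]) (by linarith [ha.2.1, hc.2.1, hb.1])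
  rcases t with rfl | rfl | rfl | rfl | rfl
  · exfalso
    linarith [ha.1, hc.1, hb.2.1]
  · exact (bk_down he hm h1 h2 ha hb hc (by linarith) ht).elim
  · have e1 : s3 = 2 * s2 - s1 := by linarith
    have e2 : s1 ^ 2 + s3 ^ 2 - 2 * s2 ^ 2 = 2 * (s2 - s1) ^ 2 := by rw [e1]; ring
    rcases bk_flat he hm h1 h2 ha hb hc (by linarith) ht with ⟨f1, f2⟩ | f
    · have e3 : w3 = 2 * w2 - w1 := by linarith
      have e4 : A * s1 ^ 2 + w1 ^ 2 + (A * s3 ^ 2 + w3 ^ 2) =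
          2 * (A * s2 ^ 2 + w2 ^ 2) + (2 * (A * (s2 - s1) ^ 2) + 2 * (w2 - w1) ^ 2) := by
        rw [e1, e3]; ring
      have p1 : (s2 - s1) ^ 2 ≤ A * (s2 - s1) ^ 2 := le_mul_of_one_le_left (sq_nonneg _) hA
      have p2 := sq_nonneg (s2 - s1)
      have p3 := sq_nonneg (w2 - w1)
      rw [e4]
      refine ⟨by linarith, fun hlt => ?_⟩
      have q1 := abs_lt_of_sq_lt_sq' (show (s2 - s1) ^ 2 < (r + 1) ^ 2 by linarith) (by omega)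
      have q2 := abs_lt_of_sq_lt_sq' (show (w2 - w1) ^ 2 < (r + 1) ^ 2 by linarith) (by omega)
      omega
    · refine fin ?_
      have p1 : e ^ 2 ≤ (2 * (s2 - s1)) ^ 2 := by
        rcases f with f | f
        · exact sq_le_sq' (by linarith) (by linarith) |>.trans_eq (neg_sq _)
        · exact pow_le_pow_left₀ he (by linarith) 2
      have p2 := mul_le_mul_of_nonneg_left p1 (show 0 ≤ A by omega)
      rw [e2]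
      nlinarith [sq_nonneg m]
  · refine fin ?_
    have p1 : 34 * m ^ 2 ≤ s1 ^ 2 + s3 ^ 2 - 2 * s2 ^ 2 := by
      have q1 : 2 * s2 + 16 * m ≤ s1 + s3 := by linarith
      have q2 : (2 * s2 + 16 * m) ^ 2 ≤ (s1 + s3) ^ 2 :=
        pow_le_pow_left₀ (by linarith [hb.1]) q1 2
      nlinarith [sq_nonneg (s1 - s3), mul_nonneg hb.1 (show 0 ≤ m by omega), sq_nonneg m]
    exact p1.trans (le_mul_of_one_le_left (by nlinarith [sq_nonneg m]) hA)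
  · exfalso
    linarith [ha.2.1, hc.2.1, hb.1]

end Vale.Agent.P057
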