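import Mathlib

open Finset

namespace Vale.Agent.P057

theorem exists_big {α β : Type} [DecidableEq β] (s : Finset α) (t : Finset β) (ht : t.Nonempty)
    (g : α → β) (hg : ∀ x ∈ s, g x ∈ t) :
    ∃ j ∈ t, s.card ≤ t.card * (s.filter fun x => g x = j).card := by
  obtain ⟨j, hj, hmax⟩ := exists_max_image t (fun j => (s.filter fun x => g x = j).card) ht
  refine ⟨j, hj, ?_⟩
  rw [card_eq_sum_card_fiberwise (f := g) (s := s) (t := t) hg]
  simpa using sum_le_card_nsmul t _ _ hmax

theorem exists_dir {G : Type} [AddCommGroup G] [Fintype G] [DecidableEq G] (E : Finset G)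
    (d N : ℕ) (hinj : ∀ k : ℕ, 0 < k → k < N → ∀ x y : G, k • x = k • y → x = y)
    (hE : N * E.card ^ d < Fintype.card G ^ d) :
    ∃ θ : Fin d → G, ∀ k : ℕ, 0 < k → k < N → ¬ ∀ i, k • θ i ∈ E := by
  by_contra h
  push Not at h
  have h1 : (univ : Finset (Fin d → G)) ⊆
      (Ioo 0 N).biUnion fun k => univ.filter fun θ : Fin d → G => ∀ i, k • θ i ∈ E := by
    intro θ _
    obtain ⟨k, h1, h2, h3⟩ := h θ
    exact mem_biUnion.2 ⟨k, mem_Ioo.2 ⟨h1, h2⟩, by simpa using h3⟩
  have h2 : ∀ k ∈ Ioo 0 N,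
      (univ.filter fun θ : Fin d → G => ∀ i, k • θ i ∈ E).card ≤ E.card ^ d := by
    intro k hk
    have : (Fintype.piFinset fun _ : Fin d => E).card = E.card ^ d := by simp
    rw [← this]
    refine card_le_card_of_injOn (fun θ i => k • θ i) (fun θ hθ => ?_) fun θ _ θ' _ e => ?_
    · simpa using hθ
    · funext i
      exact hinj k (mem_Ioo.1 hk).1 (mem_Ioo.1 hk).2 _ _ (congrFun e i)
  have h3 := (card_le_card h1).trans (card_biUnion_le_card_mul _ _ _ h2)
  rw [card_univ, Fintype.card_fun, Fintype.card_fin, Nat.card_Ioo] at h3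
  have h4 : (N - 0 - 1) * E.card ^ d ≤ N * E.card ^ d := Nat.mul_le_mul_right _ (by omega)
  omega

theorem exists_shift {H : Type} [AddCommGroup H] [Fintype H] [DecidableEq H] (B : Finset H)
    (I : Finset ℕ) (c : ℕ → H) :
    ∃ a : H, I.card * B.card ≤ Fintype.card H * (I.filter fun n => a + c n ∈ B).card := by
  obtain ⟨a, -, hmax⟩ := exists_max_image (univ : Finset H)
    (fun a => (I.filter fun n => a + c n ∈ B).card) univ_nonempty
  refine ⟨a, ?_⟩
  have h1 : ∑ a : H, (I.filter fun n => a + c n ∈ B).card = I.card * B.card := by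
    simp only [card_filter]
    rw [sum_comm]
    have : ∀ n ∈ I, (∑ a : H, if a + c n ∈ B then 1 else 0) = B.card := by
      intro n _
      refine (Equiv.sum_comp (Equiv.addRight (c n)) fun a => if a ∈ B then 1 else 0).trans ?_
      simp
    rw [sum_congr rfl this]
    simp
  rw [← h1]
  simpa using sum_le_card_nsmul univ _ _ hmax

/-- from a block with a potential to a progression free set of integers -/
theorem core {G : Type} [AddCommGroup G] [Fintype G] [DecidableEq G] (S E : Finset G) (f : G → ℕ)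
    (R w d N : ℕ) (hw : 0 < w) (hR : ∀ x ∈ S, f x ≤ R)
    (hV : ∀ x y : G, x ∈ S → x + y ∈ S → x + 2 • y ∈ S → x + 3 • y ∈ S →
      f (x + y) + f (x + 2 • y) ≤ f x + f (x + 3 • y) ∧
      (f x + f (x + 3 • y) < f (x + y) + f (x + 2 • y) + 2 * w → y ∈ E))
    (hinj : ∀ k : ℕ, 0 < k → k < N → ∀ x y : G, k • x = k • y → x = y)
    (hE : N * E.card ^ d < Fintype.card G ^ d) :
    ∃ A : Finset ℕ, A ⊆ Icc 1 N ∧
      (∀ a k : ℕ, 0 < k → ¬ (a ∈ A ∧ a + k ∈ A ∧ a + 2 * k ∈ A ∧ a + 3 * k ∈ A)) ∧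
      N * S.card ^ d ≤ Fintype.card G ^ d * ((d * R / w + 1) * A.card) := by
  obtain ⟨θ, hθ⟩ := exists_dir E d N hinj hE
  obtain ⟨j, -, hj⟩ := exists_big (Fintype.piFinset fun _ : Fin d => S) (range (d * R / w + 1))
    (by simp) (fun x => (∑ i, f (x i)) / w) (fun x hx => by
      rw [mem_range, Nat.lt_succ_iff]
      refine Nat.div_le_div_right ?_
      have := sum_le_card_nsmul univ (fun i => f (x i)) R
        (fun i _ => hR _ (Fintype.mem_piFinset.1 hx i))
      simpa using this)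
  obtain ⟨B, hB⟩ : ∃ B, B = (Fintype.piFinset fun _ : Fin d => S).filter
      fun x => (∑ i, f (x i)) / w = j := ⟨_, rfl⟩
  rw [← hB] at hj
  obtain ⟨a, ha⟩ := exists_shift B (Icc 1 N) fun n => n • θ
  refine ⟨(Icc 1 N).filter fun n => a + n • θ ∈ B, filter_subset _ _, ?_, ?_⟩
  · rintro n k hk ⟨h0, h1, h2, h3⟩
    rw [mem_filter, mem_Icc, hB, mem_filter, Fintype.mem_piFinset] at h0 h1 h2 h3
    have e1 : ∀ i, (a + (n + k) • θ) i = (a + n • θ) i + k • θ i := fun i => by
      simp [add_smul, add_assoc]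
    have e2 : ∀ i, (a + (n + 2 * k) • θ) i = (a + n • θ) i + 2 • k • θ i := fun i => by
      simp [add_smul, add_assoc, mul_smul]
    have e3 : ∀ i, (a + (n + 3 * k) • θ) i = (a + n • θ) i + 3 • k • θ i := fun i => by
      simp [add_smul, add_assoc, mul_smul]
    simp only [e1] at h1
    simp only [e2] at h2
    simp only [e3] at h3
    generalize a + n • θ = x at h0 h1 h2 h3
    have hv := fun i => hV (x i) (k • θ i) (h0.2.1 i) (h1.2.1 i) (h2.2.1 i) (h3.2.1 i)
    refine hθ k hk (by omega) fun i => (hv i).2 ?_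
    have b0 := Nat.lt_div_mul_add (a := ∑ i, f (x i)) hw
    have b3 := Nat.lt_div_mul_add (a := ∑ i, f (x i + 3 • k • θ i)) hw
    have b1 := Nat.div_mul_le_self (∑ i, f (x i + k • θ i)) w
    have b2 := Nat.div_mul_le_self (∑ i, f (x i + 2 • k • θ i)) w
    rw [h0.2.2] at b0
    rw [h1.2.2] at b1
    rw [h2.2.2] at b2
    rw [h3.2.2] at b3
    have s1 : ∑ l ∈ univ.erase i, (f (x l + k • θ l) + f (x l + 2 • k • θ l)) ≤
        ∑ l ∈ univ.erase i, (f (x l) + f (x l + 3 • k • θ l)) := sum_le_sum fun l _ => (hv l).1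
    have s2 := add_sum_erase univ (fun l => f (x l + k • θ l) + f (x l + 2 • k • θ l)) (mem_univ i)
    have s3 := add_sum_erase univ (fun l => f (x l) + f (x l + 3 • k • θ l)) (mem_univ i)
    rw [sum_add_distrib (s := univ)] at s2 s3
    omega
  · have c1 : (Fintype.piFinset fun _ : Fin d => S).card = S.card ^ d := by simp
    rw [c1, card_range] at hj
    rw [Nat.card_Icc, Fintype.card_fun, Fintype.card_fin, Nat.add_sub_cancel] at ha
    calc N * S.card ^ d ≤ N * ((d * R / w + 1) * B.card) := Nat.mul_le_mul_left _ hj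
      _ = (d * R / w + 1) * (N * B.card) := by ring
      _ ≤ (d * R / w + 1) * (Fintype.card G ^ d * _) := Nat.mul_le_mul_left _ ha
      _ = _ := by ring

end Vale.Agent.P057
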