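import Vale.Agent.P057.Core

open Finset

namespace Vale.Agent.P057

/-- from a block with a potential to a set of integers without three term progressions -/
theorem core3 {G : Type} [AddCommGroup G] [Fintype G] [DecidableEq G] (S E : Finset G) (f : G → ℕ)
    (R w d N : ℕ) (hw : 0 < w) (hR : ∀ x ∈ S, f x ≤ R)
    (hV : ∀ x y : G, x ∈ S → x + y ∈ S → x + 2 • y ∈ S →
      2 * f (x + y) ≤ f x + f (x + 2 • y) ∧
      (f x + f (x + 2 • y) < 2 * f (x + y) + 2 * w → y ∈ E))
    (hinj : ∀ k : ℕ, 0 < k → k < N → ∀ x y : G, k • x = k • y → x = y)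
    (hE : N * E.card ^ d < Fintype.card G ^ d) :
    ∃ A : Finset ℕ, A ⊆ Icc 1 N ∧
      (∀ a k : ℕ, 0 < k → ¬ (a ∈ A ∧ a + k ∈ A ∧ a + 2 * k ∈ A)) ∧
      N * S.card ^ d ≤ Fintype.card G ^ d * ((d * R / w + 1) * A.card) := by
  obtain ⟨θ, hθ⟩ := exists_dir E d N hinj hE
  obtain ⟨j, -, hj⟩ := exists_big (Fintype.piFinset fun _ : Fin d => S) (range (d * R / w + 1))
    (by simp) (fun x => (∑ i, f (x i)) / w) (fun x hx => by
      rw [mem_range, Nat.lt_succ_iff]
      refine Nat.div_le_div_right ?_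
      have := sum_le_card_nsmul univ (fun i => f (x i)) R
        (fun i _ => hR _ (Fintype.mem_piFinset.1 hx i))
      simpa using this)
  obtain ⟨B, hB⟩ : ∃ B, B = (Fintype.piFinset fun _ : Fin d => S).filter
      fun x => (∑ i, f (x i)) / w = j := ⟨_, rfl⟩
  rw [← hB] at hj
  obtain ⟨a, ha⟩ := exists_shift B (Icc 1 N) fun n => n • θ
  refine ⟨(Icc 1 N).filter fun n => a + n • θ ∈ B, filter_subset _ _, ?_, ?_⟩
  · rintro n k hk ⟨h0, h1, h2⟩
    rw [mem_filter, mem_Icc, hB, mem_filter, Fintype.mem_piFinset] at h0 h1 h2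
    have e1 : ∀ i, (a + (n + k) • θ) i = (a + n • θ) i + k • θ i := fun i => by
      simp [add_smul, add_assoc]
    have e2 : ∀ i, (a + (n + 2 * k) • θ) i = (a + n • θ) i + 2 • k • θ i := fun i => by
      simp [add_smul, add_assoc, mul_smul]
    simp only [e1] at h1
    simp only [e2] at h2
    generalize a + n • θ = x at h0 h1 h2
    have hv := fun i => hV (x i) (k • θ i) (h0.2.1 i) (h1.2.1 i) (h2.2.1 i)
    refine hθ k hk (by omega) fun i => (hv i).2 ?_
    have b0 := Nat.lt_div_mul_add (a := ∑ i, f (x i)) hw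
    have b2 := Nat.lt_div_mul_add (a := ∑ i, f (x i + 2 • k • θ i)) hw
    have b1 := Nat.div_mul_le_self (∑ i, f (x i + k • θ i)) w
    rw [h0.2.2] at b0
    rw [h1.2.2] at b1
    rw [h2.2.2] at b2
    have s1 : ∑ l ∈ univ.erase i, 2 * f (x l + k • θ l) ≤
        ∑ l ∈ univ.erase i, (f (x l) + f (x l + 2 • k • θ l)) := sum_le_sum fun l _ => (hv l).1
    have s2 := add_sum_erase univ (fun l => 2 * f (x l + k • θ l)) (mem_univ i)
    have s3 := add_sum_erase univ (fun l => f (x l) + f (x l + 2 • k • θ l)) (mem_univ i)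
    rw [← mul_sum (s := univ)] at s2
    rw [sum_add_distrib (s := univ)] at s3
    omega
  · have c1 : (Fintype.piFinset fun _ : Fin d => S).card = S.card ^ d := by simp
    rw [c1, card_range] at hj
    rw [Nat.card_Icc, Fintype.card_fun, Fintype.card_fin, Nat.add_sub_cancel] at ha
    calc N * S.card ^ d ≤ N * ((d * R / w + 1) * B.card) := Nat.mul_le_mul_left _ hj
      _ = (d * R / w + 1) * (N * B.card) := by ring
      _ ≤ (d * R / w + 1) * (Fintype.card G ^ d * _) := Nat.mul_le_mul_left _ ha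
      _ = _ := by ring

/-- the same with a parametrised block -/
theorem core3' {G β : Type} [AddCommGroup G] [Fintype G] [DecidableEq G] [Nonempty β]
    (T : Finset β) (ι : β → G) (E : Finset G) (F : β → ℕ)
    (R w d N : ℕ) (hw : 0 < w) (hR : ∀ a ∈ T, F a ≤ R) (hι : Set.InjOn ι T)
    (hV : ∀ a ∈ T, ∀ b ∈ T, ∀ c ∈ T, ι a + ι c = 2 • ι b →
      2 * F b ≤ F a + F c ∧ (F a + F c < 2 * F b + 2 * w → ι b - ι a ∈ E))
    (hinj : ∀ k : ℕ, 0 < k → k < N → ∀ x y : G, k • x = k • y → x = y)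
    (hE : N * E.card ^ d < Fintype.card G ^ d) :
    ∃ A : Finset ℕ, A ⊆ Icc 1 N ∧
      (∀ a k : ℕ, 0 < k → ¬ (a ∈ A ∧ a + k ∈ A ∧ a + 2 * k ∈ A)) ∧
      N * T.card ^ d ≤ Fintype.card G ^ d * ((d * R / w + 1) * A.card) := by
  have h1 : ∀ x ∈ T.image ι, Function.invFunOn ι T x ∈ T ∧ ι (Function.invFunOn ι T x) = x := by
    intro x hx
    obtain ⟨a, ha, e⟩ := mem_image.1 hx
    exact Function.invFunOn_pos ⟨a, ha, e⟩
  have h2 := core3 (T.image ι) E (fun x => F (Function.invFunOn ι T x)) R w d N hw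
    (fun x hx => hR _ (h1 x hx).1) (fun x y h0 h3 h4 => by
      have := hV _ (h1 _ h0).1 _ (h1 _ h3).1 _ (h1 _ h4).1 (by
        rw [(h1 _ h0).2, (h1 _ h3).2, (h1 _ h4).2, two_nsmul, two_nsmul]; abel)
      rwa [(h1 _ h0).2, (h1 _ h3).2, add_sub_cancel_left] at this) hinj hE
  rwa [card_image_of_injOn hι] at h2

end Vale.Agent.P057
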