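import Vale.Agent.P057.Block3

open Finset

namespace Vale.Agent.P057

theorem lin_step (f : ℤ → ℤ) (a b α β : ℤ) (ha : 0 ≤ a) (hab : a ≤ b)
    (h : ∀ s, a ≤ s → s < b → α + β * s ≤ f s) :
    2 * ∑ s ∈ Ico 0 a, f s + (2 * α * (b - a) + β * (b - a) * (a + b - 1)) ≤
      2 * ∑ s ∈ Ico 0 b, f s := by
  induction b, hab using Int.le_induction with
  | base => simp
  | succ n hn ih =>
    have e : Ico 0 (n + 1) = insert n (Ico 0 n) := by
      ext x
      simp only [mem_Ico, mem_insert]
      omega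
    rw [e, sum_insert (by simp)]
    have h1 := ih fun s h1 h2 => h s h1 (by omega)
    have h2 := h n hn (by omega)
    nlinarith

open Classical in
theorem slice_card (m e h s X Y : ℤ) (hY : 0 ≤ Y) (hXY : Y ≤ X) (hX : X ≤ 8 * m)
    (h1 : ∀ w, -Y ≤ 2 * w → 2 * w ≤ Y → Bk m e h s w)
    (h2 : ∀ w, Y < 2 * w → 2 * w ≤ X → (w % 2 = h % 2 → Bk m e h s (-w)) ∧
      (w % 2 ≠ h % 2 → Bk m e h s w)) :
    X + Y ≤ 2 * (((Icc (-(4 * m)) (4 * m)).filter fun w => Bk m e h s w).card : ℤ) := by
  have t : (Icc (-(Y / 2)) (X / 2)).card ≤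
      ((Icc (-(4 * m)) (4 * m)).filter fun w => Bk m e h s w).card := by
    refine card_le_card_of_injOn (fun w => if Y < 2 * w ∧ w % 2 = h % 2 then -w else w)
      (fun w hw => ?_) fun u hu v hv k => ?_
    · simp only [coe_Icc, Set.mem_Icc] at hw
      simp only [coe_filter, mem_Icc, Set.mem_setOf_eq]
      split_ifs with c
      · exact ⟨by omega, (h2 w c.1 (by omega)).1 c.2⟩
      · refine ⟨by omega, ?_⟩
        by_cases c2 : Y < 2 * w
        · exact (h2 w c2 (by omega)).2 fun c3 => c ⟨c2, c3⟩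
        · exact h1 w (by omega) (by omega)
    · simp only [coe_Icc, Set.mem_Icc] at hu hv
      simp only at k
      split_ifs at k <;> omega
  rw [Int.card_Icc] at t
  omega

open Classical in
theorem bk_card (m e h : ℤ) (he : 0 ≤ e) (hm : 4 ≤ m) (hem : e ≤ 2 * m) :
    76 * m ^ 2 - 100 * m - 8 * m * e ≤
      (((Ico 0 (14 * m) ×ˢ Icc (-(4 * m)) (4 * m)).filter fun p => Bk m e h p.1 p.2).card : ℤ) := by
  obtain ⟨f, hf⟩ : ∃ f : ℤ → ℤ, f = fun s =>
      2 * (((Icc (-(4 * m)) (4 * m)).filter fun w => Bk m e h s w).card : ℤ) := ⟨_, rfl⟩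
  have e0 : ∑ s ∈ Ico 0 (14 * m), f s = 2 *
      (((Ico 0 (14 * m) ×ˢ Icc (-(4 * m)) (4 * m)).filter fun p => Bk m e h p.1 p.2).card : ℤ) := by
    rw [hf, ← mul_sum, card_filter, sum_product]
    simp only [card_filter]
    push_cast
    rfl
  have k : ∀ s X Y : ℤ, 0 ≤ Y → Y ≤ X → X ≤ 8 * m →
      (∀ w, -Y ≤ 2 * w → 2 * w ≤ Y → Bk m e h s w) →
      (∀ w, Y < 2 * w → 2 * w ≤ X → (w % 2 = h % 2 → Bk m e h s (-w)) ∧
        (w % 2 ≠ h % 2 → Bk m e h s w)) → X + Y ≤ f s := fun s X Y a b c d g => by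
    rw [hf]
    exact slice_card m e h s X Y a b c d g
  have s1 := lin_step f 0 (6 * m) (4 * m - 2) 2 le_rfl (by omega) fun s a b => by
    have := k s (2 * m + s - 1) (2 * m + s - 1) (by omega) le_rfl (by omega)
      (fun w c d => by unfold Bk; omega) fun w c d => by omega
    omega
  have s2 := lin_step f (6 * m) (8 * m - e) (16 * m - 2) 0 (by omega) (by omega) fun s a b => by
    have := k s (8 * m - 1) (8 * m - 1) (by omega) le_rfl (by omega)
      (fun w c d => by unfold Bk; omega) fun w c d => by omega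
    omega
  have s3 := lin_step f (8 * m - e) (8 * m + 8) 0 0 (by omega) (by omega) fun s a b => by
    rw [hf]
    simp
  have s4 := lin_step f (8 * m + 8) (10 * m) (-(4 * m) - 1) 2 (by omega) (by omega) fun s a b => by
    have := k s (8 * m - 1) (2 * s - 12 * m) (by omega) (by omega) (by omega)
      (fun w c d => by unfold Bk; omega) fun w c d =>
        ⟨fun g => by unfold Bk; omega, fun g => by unfold Bk; omega⟩
    omega
  have s5 := lin_step f (10 * m) (14 * m) (56 * m - 2) (-4) (by omega) (by omega) fun s a b => by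
    have := k s (28 * m - 2 * s - 1) (28 * m - 2 * s - 1) (by omega) le_rfl (by omega)
      (fun w c d => by unfold Bk; omega) fun w c d => by omega
    omega
  rw [e0] at s5
  simp only [Ico_self, sum_empty] at s1
  nlinarith

end Vale.Agent.P057
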