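import Vale.Agent.P057.Count3

open Finset

namespace Vale.Agent.P057

theorem cast_eq_dvd {P : ℕ} {a b : ℤ} (h : (a : ZMod P) = (b : ZMod P)) : (P : ℤ) ∣ a - b := by
  rw [← ZMod.intCast_zmod_eq_zero_iff_dvd]
  push_cast
  rw [h, sub_self]

theorem bk_inj {m e h s1 w1 s2 w2 : ℤ} (he : 0 ≤ e) (h1 : 16 * m ≤ 2 * h + 1)
    (ha : Bk m e h s1 w1) (hb : Bk m e h s2 w2) (hs : 2 * h + 1 ∣ s1 - s2)
    (ht : 2 * h + 1 ∣ tt m h s1 w1 - tt m h s2 w2) : s1 = s2 ∧ w1 = w2 := by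
  have ta := bk_tt he ha
  have tb := bk_tt he hb
  obtain ⟨a1, a2, a3, a4, -⟩ := ha
  obtain ⟨b1, b2, b3, b4, -⟩ := hb
  have e1 : s1 - s2 = 0 := Int.eq_zero_of_abs_lt_dvd hs (abs_lt.2 ⟨by omega, by omega⟩)
  generalize tt m h s1 w1 = t1 at *
  generalize tt m h s2 w2 = t2 at *
  have e2 : t1 - t2 = 0 := Int.eq_zero_of_abs_lt_dvd ht (abs_lt.2 ⟨by omega, by omega⟩)
  omega

theorem core5 (d N r P : ℕ) (L : ℕ) (m e h A : ℤ) (hP : P.Prime) (hh : (P : ℤ) = 2 * h + 1)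
    (he : 0 ≤ e) (hm : 2 ≤ m) (h1 : 16 * m ≤ 2 * h + 1) (h2 : 2 * h + 1 < 16 * m + 16)
    (hA : 1 ≤ A) (hAe : 200 * m ^ 2 ≤ A * e ^ 2) (hrm : (r : ℤ) + 1 ≤ m) (hd : 1 ≤ d)
    (hNr : N ≤ r) (hN : N ≤ L ^ (2 * d)) (hL : 16 * (r + 1) * L < P) (R : ℕ)
    (hR : 212 * A * m ^ 2 ≤ R) (T : Finset (ℤ × ℤ)) (hT : ∀ p ∈ T, Bk m e h p.1 p.2) :
    ∃ A : Finset ℕ, A ⊆ Icc 1 N ∧
      (∀ a k : ℕ, 0 < k → ¬ (a ∈ A ∧ a + k ∈ A ∧ a + 2 * k ∈ A)) ∧
      N * T.card ^ d ≤ (P * P) ^ d * ((d * R / (r + 1) ^ 2 + 1) * A.card) := by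
  classical
  haveI := Fact.mk hP
  have nn : ∀ p : ℤ × ℤ, 0 ≤ A * p.1 ^ 2 + p.2 ^ 2 := fun p => by
    have : 0 ≤ A := by omega
    positivity
  have key := core3' (G := ZMod P × ZMod P) T
    (fun p => ((p.1 : ZMod P), ((tt m h p.1 p.2 : ℤ) : ZMod P)))
    ((Icc (-(r : ℤ)) r ×ˢ Icc (-(2 * r : ℤ)) (2 * r)).image
      fun u : ℤ × ℤ => ((u.1 : ZMod P), (u.2 : ZMod P)))
    (fun p => (A * p.1 ^ 2 + p.2 ^ 2).toNat) R ((r + 1) ^ 2) d N (by positivity)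
    (fun p hp => by
      have hb := hT p hp
      have b1 : p.2 ^ 2 ≤ 16 * m ^ 2 := by nlinarith [hb.2.2.1, hb.2.2.2.1]
      have b2 : p.1 ^ 2 ≤ 196 * m ^ 2 := by nlinarith [hb.1, hb.2.1]
      have b3 := mul_le_mul_of_nonneg_left b2 (show 0 ≤ A by omega)
      have b4 : m ^ 2 ≤ A * m ^ 2 := le_mul_of_one_le_left (sq_nonneg m) hA
      rw [Int.toNat_le]
      nlinarith)
    (fun p hp q hq k => by
      have k1 := cast_eq_dvd (congrArg Prod.fst k)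
      have k2 := cast_eq_dvd (congrArg Prod.snd k)
      rw [hh] at k1 k2
      have := bk_inj he h1 (hT p hp) (hT q hq) k1 k2
      exact Prod.ext this.1 this.2)
    (fun a ha b hb c hc k => by
      have k1 : (P : ℤ) ∣ a.1 + c.1 - 2 * b.1 := by
        refine cast_eq_dvd ?_
        have := congrArg Prod.fst k
        simp only [Prod.fst_add, Prod.smul_fst, nsmul_eq_mul] at this
        push_cast
        exact_mod_cast this
      have k2 : (P : ℤ) ∣ tt m h a.1 a.2 + tt m h c.1 c.2 - 2 * tt m h b.1 b.2 := by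
        refine cast_eq_dvd ?_
        have := congrArg Prod.snd k
        simp only [Prod.snd_add, Prod.smul_snd, nsmul_eq_mul] at this
        push_cast
        exact_mod_cast this
      rw [hh] at k1 k2
      have k := bk_pot (r := r) he hm h1 h2 hA hAe (by omega) hrm (hT a ha) (hT b hb) (hT c hc) k1 k2
      have n0 := Int.toNat_of_nonneg (nn a)
      have n1 := Int.toNat_of_nonneg (nn b)
      have n2 := Int.toNat_of_nonneg (nn c)
      refine ⟨by zify; rw [n0, n1, n2]; exact k.1, fun h3 => ?_⟩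
      zify at h3
      rw [n0, n1, n2] at h3
      have k3 := k.2 (by linarith)
      refine mem_image.2 ⟨(b.1 - a.1, tt m h b.1 b.2 - tt m h a.1 a.2),
        mem_product.2 ⟨mem_Icc.2 k3.1, mem_Icc.2 k3.2⟩, ?_⟩
      simp)
    (fun k k0 kN x y h => by
      have : (k : ZMod P) ≠ 0 := by
        rw [Ne, ZMod.natCast_eq_zero_iff]
        exact Nat.not_dvd_of_pos_of_lt k0 (by omega)
      have k1 := congrArg Prod.fst h
      have k2 := congrArg Prod.snd h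
      simp only [Prod.smul_fst, Prod.smul_snd, nsmul_eq_mul] at k1 k2
      exact Prod.ext (mul_left_cancel₀ this k1) (mul_left_cancel₀ this k2))
    (by
      rw [Fintype.card_prod, ZMod.card]
      have e : ((Icc (-(r : ℤ)) r ×ˢ Icc (-(2 * r : ℤ)) (2 * r)).image
          fun u : ℤ × ℤ => ((u.1 : ZMod P), (u.2 : ZMod P))).card ≤ (16 * (r + 1)) ^ 2 := by
        refine card_image_le.trans ?_
        rw [card_product, Int.card_Icc, Int.card_Icc, pow_two]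
        exact Nat.mul_le_mul (by omega) (by omega)
      calc N * _ ^ d ≤ L ^ (2 * d) * ((16 * (r + 1)) ^ 2) ^ d :=
            Nat.mul_le_mul hN (Nat.pow_le_pow_left e d)
        _ = (16 * (r + 1) * L) ^ (2 * d) := by rw [mul_pow _ L, ← pow_mul, mul_comm]
        _ < P ^ (2 * d) := Nat.pow_lt_pow_left hL (by omega)
        _ = (P * P) ^ d := by rw [pow_mul, pow_two])
  rwa [Fintype.card_prod, ZMod.card] at key

theorem dens0 (d m e s : ℤ) (m3 : 1 ≤ d) (m1 : 20 * d ≤ m) (m2 : d * e ≤ m + d)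
    (c1 : 76 * m ^ 2 - 100 * m - 8 * m * e ≤ s) : 76 * (m + 1) ^ 2 * (2 * d - 1) ≤ 2 * d * s := by
  have m4 := mul_le_mul_of_nonneg_left c1 (show (0 : ℤ) ≤ 2 * d by omega)
  have m5 := mul_le_mul_of_nonneg_left m2 (show (0 : ℤ) ≤ m by omega)
  have m6 := mul_le_mul_of_nonneg_left m1 (show (0 : ℤ) ≤ m by omega)
  nlinarith

theorem dens (d m P s : ℕ) (hd : 1 ≤ d) (c2 : 76 * ((m : ℤ) + 1) ^ 2 * (2 * d - 1) ≤ 2 * d * s)
    (hP : P ≤ 16 * (m + 1)) : (19 / 64) ^ d * ((P : ℝ) * P) ^ d * (1 / 2) ≤ (s : ℝ) ^ d := by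
  have d1 : (1 : ℝ) ≤ d := by exact_mod_cast hd
  have c2' : 76 * ((m : ℝ) + 1) ^ 2 * (2 * d - 1) ≤ 2 * d * s := by exact_mod_cast c2
  have P0 : (0 : ℝ) ≤ P := Nat.cast_nonneg P
  have P1 : (P : ℝ) ≤ 16 * (m + 1) := by exact_mod_cast hP
  have P2 : (P : ℝ) * P ≤ 256 * (m + 1) ^ 2 := by nlinarith
  have u1 : 1 / (2 * (d : ℝ)) ≤ 1 / 2 := by
    rw [div_le_div_iff₀ (by positivity) (by norm_num)]
    linarith
  have c3 : 19 / 64 * ((P : ℝ) * P) * (1 + -(1 / (2 * d))) ≤ (s : ℝ) := by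
    have t : 19 / 64 * ((P : ℝ) * P) * (1 + -(1 / (2 * d))) =
        19 / 64 * ((P : ℝ) * P) * (2 * d - 1) / (2 * d) := by field_simp; ring
    rw [t, div_le_iff₀ (by positivity)]
    have := mul_le_mul_of_nonneg_right P2 (show (0 : ℝ) ≤ 2 * d - 1 by linarith)
    linarith
  have c4 : 1 + (d : ℝ) * -(1 / (2 * d)) ≤ (1 + -(1 / (2 * d))) ^ d :=
    one_add_mul_le_pow (by linarith) d
  have c5 : (d : ℝ) * (1 / (2 * d)) = 1 / 2 := by field_simp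
  have c6 : (19 / 64 * ((P : ℝ) * P) * (1 + -(1 / (2 * d)))) ^ d ≤ (s : ℝ) ^ d :=
    pow_le_pow_left₀ (mul_nonneg (by positivity) (by linarith)) c3 d
  rw [mul_pow, mul_pow] at c6
  exact le_trans (mul_le_mul_of_nonneg_left (by linarith) (by positivity)) c6

theorem core6 (d L N : ℕ) (hd : 1 ≤ d) (hL : 1 ≤ L) (hN : N ≤ L ^ (2 * d)) :
    ∃ A : Finset ℕ, A ⊆ Icc 1 N ∧
      (∀ a k : ℕ, 0 < k → ¬ (a ∈ A ∧ a + k ∈ A ∧ a + 2 * k ∈ A)) ∧
      (N : ℝ) * (19 / 64) ^ d ≤ 340000 * d ^ 3 * L ^ 2 * A.card := by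
  classical
  obtain ⟨r, hr⟩ : ∃ r, r = N + 20 * d := ⟨_, rfl⟩
  obtain ⟨P, hP, h1, h2⟩ := Nat.exists_prime_lt_and_le_two_mul (16 * (r + 1) * L) (by positivity)
  have h3 : 16 * (r + 1) * 1 ≤ 16 * (r + 1) * L := Nat.mul_le_mul_left _ hL
  have odd : P % 2 = 1 := hP.eq_two_or_odd.resolve_left (by omega)
  obtain ⟨m, hm⟩ : ∃ m : ℕ, m = P / 16 := ⟨_, rfl⟩
  obtain ⟨e, he⟩ : ∃ e : ℕ, e = m / d + 1 := ⟨_, rfl⟩
  obtain ⟨h, hh⟩ : ∃ h : ℕ, h = P / 2 := ⟨_, rfl⟩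
  have e1 : m < d * e := by rw [he]; exact Nat.lt_mul_div_succ m hd
  have e2 : d * e ≤ m + d := by
    rw [he, mul_add, mul_one]
    exact Nat.add_le_add_right (Nat.mul_div_le m d) d
  have e3 : e ≤ m + 1 := by rw [he]; exact Nat.add_le_add_right (Nat.div_le_self m d) 1
  have c1 := bk_card m e h (by omega) (by omega) (by omega)
  obtain ⟨A, a1, a2, a3⟩ := core5 d N r P L m e h (200 * d ^ 2) hP (by omega) (by omega) (by omega)
    (by omega) (by omega) (by nlinarith)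
    (by
      have : m ^ 2 ≤ (d * e) ^ 2 := Nat.pow_le_pow_left e1.le 2
      zify at this
      nlinarith)
    (by omega) hd (by omega) hN h1 (42400 * d ^ 2 * m ^ 2) (by push_cast; nlinarith)
    ((Ico (0 : ℤ) (14 * m) ×ˢ Icc (-(4 * m : ℤ)) (4 * m)).filter fun p => Bk m e h p.1 p.2)
    (fun p hp => (mem_filter.1 hp).2)
  refine ⟨A, a1, a2, ?_⟩
  generalize ((Ico (0 : ℤ) (14 * m) ×ˢ Icc (-(4 * m : ℤ)) (4 * m)).filter
    fun p => Bk m e h p.1 p.2).card = s at a3 c1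
  have w1 : d * (42400 * d ^ 2 * m ^ 2) / (r + 1) ^ 2 + 1 ≤ 170000 * d ^ 3 * L ^ 2 := by
    have q1 : m ≤ 2 * (r + 1) * L := by
      have : 16 * m ≤ 16 * (2 * (r + 1) * L) := by
        calc 16 * m ≤ P := by omega
          _ ≤ _ := h2
          _ = _ := by ring
      omega
    have q2 : m ^ 2 ≤ (2 * (r + 1) * L) ^ 2 := Nat.pow_le_pow_left q1 2
    have q3 : d * (42400 * d ^ 2 * m ^ 2) / (r + 1) ^ 2 ≤ 169600 * d ^ 3 * L ^ 2 := by
      refine Nat.div_le_of_le_mul ?_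
      calc d * (42400 * d ^ 2 * m ^ 2) ≤ d * (42400 * d ^ 2 * (2 * (r + 1) * L) ^ 2) := by gcongr
        _ = _ := by ring
    have q4 : 1 ≤ d ^ 3 * L ^ 2 := Nat.one_le_iff_ne_zero.2 (by positivity)
    nlinarith
  have a4 : N * s ^ d ≤ (P * P) ^ d * (170000 * d ^ 3 * L ^ 2 * A.card) :=
    a3.trans (Nat.mul_le_mul_left _ (Nat.mul_le_mul_right _ w1))
  have a5 : (N : ℝ) * s ^ d ≤ (P * P) ^ d * (170000 * d ^ 3 * L ^ 2 * A.card) := by
    exact_mod_cast a4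
  have P0 : (0 : ℝ) < P := by exact_mod_cast hP.pos
  have d1 : (1 : ℝ) ≤ d := by exact_mod_cast hd
  have c7 := dens d m P s hd (dens0 d m e s (by omega) (by omega) (by exact_mod_cast e2) c1)
    (by omega)
  have c8 : ((P : ℝ) * P) ^ d * (N * (19 / 64) ^ d) ≤
      (P * P) ^ d * (340000 * d ^ 3 * L ^ 2 * A.card) := by
    have := mul_le_mul_of_nonneg_left c7 (Nat.cast_nonneg N : (0 : ℝ) ≤ N)
    nlinarith
  exact le_of_mul_le_mul_left c8 (by positivity)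

end Vale.Agent.P057
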