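import Mathlib

open Finset

namespace Vale.Agent.P057R8

/-- `A` contains no nonconstant `k`-term arithmetic progression. -/
def APFree (k : ℕ) (A : Finset ℕ) : Prop :=
  ∀ a d : ℕ, 0 < d → ¬ ∀ i < k, a + i * d ∈ A

open Classical in
/-- `r k N` is the largest size of a subset of `{1, …, N}` with no `k`-term progression. -/
noncomputable def r (k N : ℕ) : ℕ :=
  (((Finset.Icc 1 N).powerset).filter (fun A => APFree k A)).sup Finset.card

theorem card_le_r {k N : ℕ} {A : Finset ℕ} (hA : A ⊆ Finset.Icc 1 N) (h : APFree k A) :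
    A.card ≤ r k N := by
  classical
  unfold r
  exact Finset.le_sup (f := Finset.card) (by simp [hA, h])

theorem map_lt {n q : ℕ} (x : Fin n → ℕ) (hx : ∀ i, x i < q) : Behrend.map q x < q ^ n := by
  induction n with
  | zero => simp
  | succ n ih =>
    rw [Behrend.map_succ', pow_succ]
    have h1 := ih (x ∘ Fin.succ) (fun i => hx _)
    have h0 := hx 0
    nlinarith

theorem level2 {n : ℕ} (b : ℕ → Fin n → ℕ) (s : ℕ)
    (hP : ∀ i < 4, ∀ j, b (i + 4) j + 2 * b (i + 1) j = 2 * b (i + 3) j + b i j)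
    (hs : ∀ i < 8, ∑ j, b i j ^ 2 = s) : ∀ j, b 0 j + b 4 j = 2 * b 2 j := by
  have key : ∀ j, 3 * ((b 0 j : ℤ) - 2 * b 2 j + b 4 j) ^ 2 =
      (b 7 j : ℤ) ^ 2 - (b 6 j : ℤ) ^ 2 - 3 * (b 5 j : ℤ) ^ 2 + 3 * (b 4 j : ℤ) ^ 2
        + 3 * (b 3 j : ℤ) ^ 2 - 3 * (b 2 j : ℤ) ^ 2 - (b 1 j : ℤ) ^ 2 + (b 0 j : ℤ) ^ 2 := by
    intro j
    have h0 := hP 0 (by norm_num) j
    have h1 := hP 1 (by norm_num) j
    have h2 := hP 2 (by norm_num) j
    have h3 := hP 3 (by norm_num) j
    norm_num at h0 h1 h2 h3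
    have e4 : (b 4 j : ℤ) = 2 * b 3 j + b 0 j - 2 * b 1 j := by omega
    have e5 : (b 5 j : ℤ) = 2 * b 4 j + b 1 j - 2 * b 2 j := by omega
    have e6 : (b 6 j : ℤ) = 2 * b 5 j + b 2 j - 2 * b 3 j := by omega
    have e7 : (b 7 j : ℤ) = 2 * b 6 j + b 3 j - 2 * b 4 j := by omega
    rw [e7, e6, e5, e4]; ring
  have hz : ∀ i < 8, ∑ j, (b i j : ℤ) ^ 2 = s := by
    intro i hi
    exact_mod_cast hs i hi
  have hsum : ∑ j, 3 * ((b 0 j : ℤ) - 2 * b 2 j + b 4 j) ^ 2 = 0 := by
    simp only [key, Finset.sum_add_distrib, Finset.sum_sub_distrib, ← Finset.mul_sum]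
    rw [hz 0 (by norm_num), hz 1 (by norm_num), hz 2 (by norm_num), hz 3 (by norm_num),
      hz 4 (by norm_num), hz 5 (by norm_num), hz 6 (by norm_num), hz 7 (by norm_num)]
    ring
  intro j
  have := (Finset.sum_eq_zero_iff_of_nonneg (fun j _ => by positivity)).1 hsum j (mem_univ _)
  have h2 : (b 0 j : ℤ) - 2 * b 2 j + b 4 j = 0 := by
    have : ((b 0 j : ℤ) - 2 * b 2 j + b 4 j) ^ 2 = 0 := by linarith
    exact pow_eq_zero_iff (two_ne_zero) |>.1 this
  omega

theorem level1 {n : ℕ} (a : ℕ → Fin n → ℕ)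
    (hA : ∀ i < 6, ∀ j, a i j + a (i + 2) j = 2 * a (i + 1) j) :
    (∀ i < 4, (∑ j, a (i + 4) j ^ 2) + 2 * ∑ j, a (i + 1) j ^ 2
      = 2 * (∑ j, a (i + 3) j ^ 2) + ∑ j, a i j ^ 2) ∧
    ((∑ j, a 0 j ^ 2) + ∑ j, a 4 j ^ 2 = 2 * ∑ j, a 2 j ^ 2 → a 0 = a 1) := by
  constructor
  · intro i hi
    simp only [Finset.mul_sum, ← Finset.sum_add_distrib]
    refine Finset.sum_congr rfl fun j _ => ?_
    have h0 := hA i (by omega) j
    have h1 := hA (i + 1) (by omega) j
    have h2 := hA (i + 2) (by omega) j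
    simp only [add_assoc] at h1 h2
    norm_num at h1 h2
    have e2 : (a (i + 2) j : ℤ) = 2 * a (i + 1) j - a i j := by omega
    have e3 : (a (i + 3) j : ℤ) = 2 * a (i + 2) j - a (i + 1) j := by omega
    have e4 : (a (i + 4) j : ℤ) = 2 * a (i + 3) j - a (i + 2) j := by omega
    zify
    rw [e4, e3, e2]; ring
  · intro h
    have key : ∀ j, 8 * ((a 1 j : ℤ) - a 0 j) ^ 2 =
        (a 0 j : ℤ) ^ 2 + (a 4 j : ℤ) ^ 2 - 2 * (a 2 j : ℤ) ^ 2 := by
      intro j
      have h0 := hA 0 (by omega) j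
      have h1 := hA 1 (by omega) j
      have h2 := hA 2 (by omega) j
      norm_num at h0 h1 h2
      have e2 : (a 2 j : ℤ) = 2 * a 1 j - a 0 j := by omega
      have e3 : (a 3 j : ℤ) = 2 * a 2 j - a 1 j := by omega
      have e4 : (a 4 j : ℤ) = 2 * a 3 j - a 2 j := by omega
      rw [e4, e3, e2]; ring
    have hsum : ∑ j, 8 * ((a 1 j : ℤ) - a 0 j) ^ 2 = 0 := by
      simp only [key, Finset.sum_add_distrib, Finset.sum_sub_distrib, ← Finset.mul_sum]
      have : (∑ j, (a 0 j : ℤ) ^ 2) + ∑ j, (a 4 j : ℤ) ^ 2 = 2 * ∑ j, (a 2 j : ℤ) ^ 2 := by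
        exact_mod_cast h
      linarith
    funext j
    have := (Finset.sum_eq_zero_iff_of_nonneg (fun j _ => by positivity)).1 hsum j (mem_univ _)
    have h2 : (a 1 j : ℤ) - a 0 j = 0 := by
      have : ((a 1 j : ℤ) - a 0 j) ^ 2 = 0 := by linarith
      exact pow_eq_zero_iff (two_ne_zero) |>.1 this
    omega

theorem core (d1 m1 d2 m2 : ℕ) (hm : d1 * m1 ^ 2 ≤ (3 * m2) ^ d2) :
    ∃ A : Finset ℕ, A ⊆ Finset.Icc 1 ((2 * m1) ^ d1) ∧ APFree 8 A ∧
      m1 ^ d1 * m2 ^ d2 ≤ A.card * ((2 * (3 * m2) ^ d2) * (d2 * m2 ^ 2 + 1)) := by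
  classical
  set B := Behrend.box d1 m1 ×ˢ Behrend.box d2 m2 with hB
  set T := range (2 * (3 * m2) ^ d2) ×ˢ range (d2 * m2 ^ 2 + 1) with hT
  let f : (Fin d1 → ℕ) × (Fin d2 → ℕ) → ℕ × ℕ := fun p =>
    ((∑ j, p.1 j ^ 2) + Behrend.map (3 * m2) p.2, ∑ j, p.2 j ^ 2)
  have sqle : ∀ {n d : ℕ} {x : Fin n → ℕ}, x ∈ Behrend.box n d → ∑ j, x j ^ 2 ≤ n * d ^ 2 := by
    intro n d x hx
    refine (Behrend.sum_sq_le_of_mem_box hx).trans ?_
    gcongr
    omega
  have hf : ∀ p ∈ B, f p ∈ T := by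
    intro p hp
    rw [hB, mem_product] at hp
    rw [hT, mem_product, mem_range, mem_range]
    have h1 := sqle hp.1
    have h2 := sqle hp.2
    have h3 := map_lt (q := 3 * m2) p.2 (fun i => by
      have := Behrend.mem_box.1 hp.2 i; omega)
    constructor
    · show (∑ j, p.1 j ^ 2) + Behrend.map (3 * m2) p.2 < _
      omega
    · show ∑ j, p.2 j ^ 2 < _
      omega
  have hcard : B.card = ∑ t ∈ T, (B.filter (fun p => f p = t)).card :=
    Finset.card_eq_sum_card_fiberwise hf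
  by_cases hTe : T = ∅
  · refine ⟨∅, by simp, ?_, ?_⟩
    · intro a d _ h
      simpa using h 0 (by norm_num)
    · rw [hTe] at hcard
      rw [hB, card_product, Behrend.card_box, Behrend.card_box] at hcard
      simp only [Finset.sum_empty] at hcard
      omega
  obtain ⟨t, -, ht⟩ := Finset.exists_max_image T (fun t => (B.filter (fun p => f p = t)).card)
    (Finset.nonempty_iff_ne_empty.2 hTe)
  set S := B.filter (fun p => f p = t) with hS
  have hBS : B.card ≤ T.card * S.card := by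
    rw [hcard]
    exact (Finset.sum_le_card_nsmul _ _ _ ht).trans (by simp)
  have hSm : ∀ p ∈ S, (∀ j, p.1 j < m1) ∧ (∀ j, p.2 j < m2) ∧
      (∑ j, p.1 j ^ 2) + Behrend.map (3 * m2) p.2 = t.1 ∧ ∑ j, p.2 j ^ 2 = t.2 := by
    intro p hp
    rw [hS, mem_filter, hB, mem_product] at hp
    refine ⟨Behrend.mem_box.1 hp.1.1, Behrend.mem_box.1 hp.1.2, ?_, ?_⟩
    · exact congrArg Prod.fst hp.2
    · exact congrArg Prod.snd hp.2
  let g : (Fin d1 → ℕ) × (Fin d2 → ℕ) → ℕ := fun p => Behrend.map (2 * m1) p.1 + 1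
  have hg : Set.InjOn g S := by
    intro p hp p' hp' h
    obtain ⟨a1, a2, a3, -⟩ := hSm p hp
    obtain ⟨b1, b2, b3, -⟩ := hSm p' hp'
    have e1 : p.1 = p'.1 := Behrend.map_injOn (d := 2 * m1)
      (fun i => by have := a1 i; omega) (fun i => by have := b1 i; omega)
      (by simpa [g] using h)
    have e2 : p.2 = p'.2 := Behrend.map_injOn (d := 3 * m2)
      (fun i => by have := a2 i; omega) (fun i => by have := b2 i; omega)
      (by rw [e1] at a3; omega)
    exact Prod.ext e1 e2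
  refine ⟨S.image g, ?_, ?_, ?_⟩
  · intro x hx
    obtain ⟨p, hp, rfl⟩ := mem_image.1 hx
    obtain ⟨a1, -⟩ := hSm p hp
    have := map_lt (q := 2 * m1) p.1 (fun i => by have := a1 i; omega)
    simp only [g, mem_Icc]
    omega
  · intro a d hd h
    have h' : ∀ i, ∃ p : (Fin d1 → ℕ) × (Fin d2 → ℕ), i < 8 → p ∈ S ∧ g p = a + i * d := by
      intro i
      by_cases hi : i < 8
      · obtain ⟨p, hp, e⟩ := mem_image.1 (h i hi)
        exact ⟨p, fun _ => ⟨hp, e⟩⟩
      · exact ⟨default, fun h => absurd h hi⟩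
    choose p hp using h'
    have hA : ∀ i < 6, ∀ j, (p i).1 j + (p (i + 2)).1 j = 2 * (p (i + 1)).1 j := by
      intro i hi
      obtain ⟨s0, e0⟩ := hp i (by omega)
      obtain ⟨s1, e1⟩ := hp (i + 1) (by omega)
      obtain ⟨s2, e2⟩ := hp (i + 2) (by omega)
      have b0 := (hSm _ s0).1
      have b1 := (hSm _ s1).1
      have b2 := (hSm _ s2).1
      have : (p i).1 + (p (i + 2)).1 = (p (i + 1)).1 + (p (i + 1)).1 :=
        Behrend.map_injOn (d := 2 * m1)
          (fun j => by have := b0 j; have := b2 j; simp only [Pi.add_apply]; omega)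
          (fun j => by have := b1 j; simp only [Pi.add_apply]; omega)
          (by
            rw [map_add, map_add]
            simp only [g] at e0 e1 e2
            have : (i + 1) * d = i * d + d := by ring
            have : (i + 2) * d = i * d + 2 * d := by ring
            omega)
      intro j
      have := congrFun this j
      simp only [Pi.add_apply] at this
      omega
    obtain ⟨l1, l2⟩ := level1 (fun i => (p i).1) hA
    have hP : ∀ i < 4, ∀ j, (p (i + 4)).2 j + 2 * (p (i + 1)).2 j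
        = 2 * (p (i + 3)).2 j + (p i).2 j := by
      intro i hi
      obtain ⟨-, b0, c0, -⟩ := hSm _ (hp i (by omega)).1
      obtain ⟨-, b1, c1, -⟩ := hSm _ (hp (i + 1) (by omega)).1
      obtain ⟨-, b3, c3, -⟩ := hSm _ (hp (i + 3) (by omega)).1
      obtain ⟨-, b4, c4, -⟩ := hSm _ (hp (i + 4) (by omega)).1
      have l := l1 i hi
      have : (p (i + 4)).2 + (p (i + 1)).2 + (p (i + 1)).2
          = (p (i + 3)).2 + (p (i + 3)).2 + (p i).2 :=
        Behrend.map_injOn (d := 3 * m2)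
          (fun j => by have := b4 j; have := b1 j; simp only [Pi.add_apply]; omega)
          (fun j => by have := b3 j; have := b0 j; simp only [Pi.add_apply]; omega)
          (by
            rw [map_add, map_add, map_add, map_add]
            omega)
      intro j
      have := congrFun this j
      simp only [Pi.add_apply] at this
      omega
    have l3 := level2 (fun i => (p i).2) t.2 hP
      (fun i hi => (hSm _ (hp i hi).1).2.2.2)
    have l4 : (p 0).2 + (p 4).2 = (p 2).2 + (p 2).2 := by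
      funext j
      have := l3 j
      simp only [Pi.add_apply] at this ⊢
      omega
    have l5 := congrArg (Behrend.map (3 * m2)) l4
    rw [map_add, map_add] at l5
    have c0 := (hSm _ (hp 0 (by omega)).1).2.2.1
    have c2 := (hSm _ (hp 2 (by omega)).1).2.2.1
    have c4 := (hSm _ (hp 4 (by omega)).1).2.2.1
    have l6 := l2 (by omega)
    have e0 := (hp 0 (by omega)).2
    have e1 := (hp 1 (by omega)).2
    simp only [g] at e0 e1 l6
    rw [l6] at e0
    omega
  · rw [Finset.card_image_of_injOn hg]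
    rw [hB, card_product, Behrend.card_box, Behrend.card_box, hT, card_product, card_range,
      card_range] at hBS
    linarith

end Vale.Agent.P057R8
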