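import Vale.Agent.P057.R8Core

open Finset Real Filter

namespace Vale.Agent.P057R8

theorem r_mono_aux {N M : ℕ} (h : M ≤ N) {A : Finset ℕ} (hA : A ⊆ Finset.Icc 1 M)
    (hf : APFree 8 A) : A.card ≤ r 8 N :=
  card_le_r (hA.trans (Finset.Icc_subset_Icc_right h)) hf

theorem step (N d1 d2 : ℕ) (L : ℝ) (hN : (N : ℝ) = exp L) (hL : 0 ≤ L) (h1 : 0 < d1)
    (h2 : 0 < d2) (hx : 4 * (d1 : ℝ) ≤ exp (L / d1)) :
    (N : ℝ) ≤ r 8 N * (16 * 2 ^ d1 * 3 ^ d2 * (d2 + 1) * (d1 + 1) ^ 2 * exp (4 * L / (d1 * d2))) := by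
  have d1p : (0 : ℝ) < d1 := by exact_mod_cast h1
  have d2p : (0 : ℝ) < d2 := by exact_mod_cast h2
  have d1o : (1 : ℝ) ≤ d1 := by exact_mod_cast h1
  set x := exp (L / d1) with hxd
  have xpos : 0 < x := exp_pos _
  have xpow : x ^ d1 = N := by
    rw [hxd, ← exp_nat_mul, hN]; congr 1; field_simp
  set m1 := ⌊x / 2⌋₊ with hm1
  have m1le : (m1 : ℝ) ≤ x / 2 := Nat.floor_le (by positivity)
  have m1ge : x / 2 - 1 ≤ m1 := by
    have := Nat.lt_floor_add_one (x / 2); linarith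
  set z := exp (2 * L / (d1 * d2)) with hz
  have z1 : 1 ≤ z := one_le_exp (by positivity)
  have zpow : z ^ d2 = x ^ 2 := by
    rw [hz, hxd, ← exp_nat_mul, ← exp_nat_mul]; congr 1; push_cast; field_simp
  have zsq : z ^ 2 = exp (4 * L / (d1 * d2)) := by
    rw [hz, ← exp_nat_mul]; congr 1; push_cast; ring
  set y := ((d1 : ℝ) + 1) * z with hy
  have y1 : 1 ≤ y := by nlinarith
  set m2 := ⌈y⌉₊ with hm2
  have m2ge : y ≤ m2 := Nat.le_ceil y
  have m2le : (m2 : ℝ) ≤ 2 * y := by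
    have := Nat.ceil_lt_add_one (show 0 ≤ y by linarith); linarith
  have hm : d1 * m1 ^ 2 ≤ (3 * m2) ^ d2 := by
    have : (d1 : ℝ) * (m1 : ℝ) ^ 2 ≤ (3 * m2) ^ d2 := by
      calc (d1 : ℝ) * (m1 : ℝ) ^ 2 ≤ (d1 + 1) ^ d2 * x ^ 2 := by
            gcongr
            · calc (d1 : ℝ) ≤ (d1 + 1) ^ 1 := by linarith [pow_one ((d1 : ℝ) + 1)]
                _ ≤ (d1 + 1) ^ d2 := pow_le_pow_right₀ (by linarith) h2
            · linarith
        _ = y ^ d2 := by rw [hy, mul_pow, zpow]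
        _ ≤ (3 * m2) ^ d2 := by gcongr; linarith
    exact_mod_cast this
  obtain ⟨A, hA, hf, hc⟩ := core d1 m1 d2 m2 hm
  have hle : (2 * m1) ^ d1 ≤ N := by
    have : ((2 * m1 : ℝ)) ^ d1 ≤ N := by
      rw [← xpow]; gcongr; linarith
    exact_mod_cast this
  have hr : (A.card : ℝ) ≤ r 8 N := by exact_mod_cast r_mono_aux hle hA hf
  have hc' : (m1 : ℝ) ^ d1 * (m2 : ℝ) ^ d2
      ≤ A.card * ((2 * (3 * m2) ^ d2) * (d2 * (m2 : ℝ) ^ 2 + 1)) := by exact_mod_cast hc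
  have m2o : (1 : ℝ) ≤ m2 := by linarith
  have hc2 : (m1 : ℝ) ^ d1 ≤ A.card * ((2 * 3 ^ d2) * (d2 * (m2 : ℝ) ^ 2 + 1)) := by
    have hp : (0 : ℝ) < (m2 : ℝ) ^ d2 := by positivity
    refine le_of_mul_le_mul_right ?_ hp
    calc _ ≤ _ := hc'
      _ = _ := by rw [mul_pow]; ring
  have hm1' : (N : ℝ) ≤ 2 * 2 ^ d1 * (m1 : ℝ) ^ d1 := by
    have hb : 1 + (d1 : ℝ) * (-2 / x) ≤ (1 + -2 / x) ^ d1 := by
      apply one_add_mul_le_pow
      have : 2 / x ≤ 2 := by rw [div_le_iff₀ xpos]; linarith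
      have e : -2 / x = -(2 / x) := by ring
      linarith
    have hh : 1 / 2 ≤ 1 + (d1 : ℝ) * (-2 / x) := by
      have : (d1 : ℝ) * (2 / x) ≤ 1 / 2 := by
        rw [← mul_div_assoc, div_le_iff₀ xpos]; linarith
      have e : (d1 : ℝ) * (-2 / x) = -(d1 * (2 / x)) := by ring
      linarith
    have e : x * (1 + -2 / x) = 2 * (x / 2 - 1) := by field_simp; ring
    have h3 : x ^ d1 * (1 + -2 / x) ^ d1 ≤ 2 ^ d1 * (m1 : ℝ) ^ d1 := by
      rw [← mul_pow, ← mul_pow, e]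
      gcongr
      linarith
    have h4 : x ^ d1 * (1 / 2) ≤ x ^ d1 * (1 + -2 / x) ^ d1 := by
      gcongr; linarith
    rw [xpow] at h3 h4
    linarith
  have hq : (d2 : ℝ) * (m2 : ℝ) ^ 2 + 1 ≤ (d2 + 1) * (4 * ((d1 + 1) ^ 2 * z ^ 2)) := by
    have a1 : (m2 : ℝ) ^ 2 ≤ (2 * y) ^ 2 := by gcongr
    have a2 : (1 : ℝ) ≤ (m2 : ℝ) ^ 2 := one_le_pow₀ m2o
    have a3 : (2 * y) ^ 2 = 4 * ((d1 + 1) ^ 2 * z ^ 2) := by rw [hy]; ring
    rw [← a3]
    nlinarith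
  rw [← zsq]
  calc (N : ℝ) ≤ 2 * 2 ^ d1 * (m1 : ℝ) ^ d1 := hm1'
    _ ≤ 2 * 2 ^ d1 * (A.card * ((2 * 3 ^ d2) * (d2 * (m2 : ℝ) ^ 2 + 1))) := by gcongr
    _ ≤ 2 * 2 ^ d1 * (r 8 N * ((2 * 3 ^ d2) * ((d2 + 1) * (4 * ((d1 + 1) ^ 2 * z ^ 2))))) := by
        gcongr
    _ = _ := by ring

theorem main (ε : ℝ) (hε : 0 < ε) : ∃ N₀ : ℕ, ∀ N ≥ N₀,
    (N : ℝ) * exp (-(3 * (4 * log 2 * log 3) ^ (1 / 3 : ℝ) + ε) * (log N) ^ (1 / 3 : ℝ))
      ≤ r 8 N := by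
  have l2 : 0 < log 2 := log_pos (by norm_num)
  have l3 : 0 < log 3 := log_pos (by norm_num)
  set κ := (4 * log 2 * log 3) ^ (1 / 3 : ℝ) with hκ
  have κp : 0 < κ := by positivity
  have κ3 : κ ^ 3 = 4 * log 2 * log 3 := by
    rw [hκ, ← rpow_natCast, ← rpow_mul (by positivity)]; norm_num
  set α := κ / log 2 with hα
  set β := κ / log 3 with hβ
  have αp : 0 < α := by positivity
  have βp : 0 < β := by positivity
  set K := 96 * (β + 2) * (α + 2) ^ 2 with hK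
  have hT : Tendsto (fun N : ℕ => (log N) ^ (1 / 3 : ℝ)) atTop atTop :=
    (tendsto_rpow_atTop (by norm_num)).comp (tendsto_log_atTop.comp tendsto_natCast_atTop_atTop)
  obtain ⟨N₀, hN₀⟩ := eventually_atTop.1
    (((hT.eventually_ge_atTop 1).and (hT.eventually_ge_atTop (4 * (α + 1) ^ 2))).and
      ((hT.eventually_ge_atTop (24 * K / ε ^ 4)).and (eventually_ge_atTop 1)))
  refine ⟨N₀, fun N hN => ?_⟩
  obtain ⟨⟨u1, u2⟩, u3, N1⟩ := hN₀ N hN
  have Np : (1 : ℝ) ≤ N := by exact_mod_cast N1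
  have Lp : 0 ≤ log N := log_nonneg Np
  set u := (log N) ^ (1 / 3 : ℝ) with hu
  have ucube : u ^ 3 = log N := by
    rw [hu, ← rpow_natCast, ← rpow_mul Lp]; norm_num
  have up : 0 < u := by linarith
  set d1 := ⌈α * u⌉₊ with hd1
  set d2 := ⌈β * u⌉₊ with hd2
  have d1ge : α * u ≤ d1 := Nat.le_ceil _
  have d2ge : β * u ≤ d2 := Nat.le_ceil _
  have d1le : (d1 : ℝ) ≤ α * u + 1 := (Nat.ceil_lt_add_one (by positivity)).le
  have d2le : (d2 : ℝ) ≤ β * u + 1 := (Nat.ceil_lt_add_one (by positivity)).le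
  have d1p : (0 : ℝ) < d1 := lt_of_lt_of_le (by positivity) d1ge
  have d2p : (0 : ℝ) < d2 := lt_of_lt_of_le (by positivity) d2ge
  have hx : 4 * (d1 : ℝ) ≤ exp (log N / d1) := by
    have a1 : (d1 : ℝ) ≤ (α + 1) * u := by nlinarith
    have a2 : 4 * (d1 : ℝ) ≤ log N / d1 := by
      rw [le_div_iff₀ d1p, ← ucube]
      calc 4 * (d1 : ℝ) * d1 ≤ 4 * ((α + 1) * u) * ((α + 1) * u) := by gcongr
        _ = (4 * (α + 1) ^ 2) * u ^ 2 := by ring
        _ ≤ u * u ^ 2 := by gcongr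
        _ = u ^ 3 := by ring
    have := add_one_le_exp (log N / d1)
    linarith
  have hs := step N d1 d2 (log N) (exp_log (by linarith)).symm Lp (by exact_mod_cast d1p)
    (by exact_mod_cast d2p) hx
  have b1 : (2 : ℝ) ^ d1 ≤ 2 * exp (κ * u) := by
    have : (2 : ℝ) ^ d1 = exp (d1 * log 2) := by
      rw [exp_nat_mul, exp_log (by norm_num)]
    rw [this]
    calc exp (d1 * log 2) ≤ exp (log 2 + κ * u) := by
          apply exp_le_exp.2
          have e : (α * u + 1) * log 2 = log 2 + κ * u := by rw [hα]; field_simp; ring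
          rw [← e]; gcongr
      _ = _ := by rw [exp_add, exp_log (by norm_num)]
  have b2 : (3 : ℝ) ^ d2 ≤ 3 * exp (κ * u) := by
    have : (3 : ℝ) ^ d2 = exp (d2 * log 3) := by
      rw [exp_nat_mul, exp_log (by norm_num)]
    rw [this]
    calc exp (d2 * log 3) ≤ exp (log 3 + κ * u) := by
          apply exp_le_exp.2
          have e : (β * u + 1) * log 3 = log 3 + κ * u := by rw [hβ]; field_simp; ring
          rw [← e]; gcongr
      _ = _ := by rw [exp_add, exp_log (by norm_num)]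
  have b3 : exp (4 * log N / (d1 * d2)) ≤ exp (κ * u) := by
    apply exp_le_exp.2
    rw [div_le_iff₀ (by positivity), ← ucube]
    have e : 4 * u ^ 3 = κ * u * ((α * u) * (β * u)) := by
      rw [hα, hβ]; field_simp; rw [κ3]
    rw [e]; gcongr
  have b4 : 96 * ((d2 : ℝ) + 1) * (d1 + 1) ^ 2 ≤ exp (ε * u) := by
    have a1 : (d1 : ℝ) + 1 ≤ (α + 2) * u := by nlinarith
    have a2 : (d2 : ℝ) + 1 ≤ (β + 2) * u := by nlinarith
    have a3 := pow_div_factorial_le_exp (ε * u) (by positivity) 4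
    have a4 : 24 * K ≤ u * ε ^ 4 := by rwa [div_le_iff₀ (by positivity)] at u3
    calc 96 * ((d2 : ℝ) + 1) * (d1 + 1) ^ 2 ≤ 96 * ((β + 2) * u) * ((α + 2) * u) ^ 2 := by gcongr
      _ = (24 * K) * u ^ 3 / 24 := by rw [hK]; ring
      _ ≤ (u * ε ^ 4) * u ^ 3 / 24 := by gcongr
      _ = (ε * u) ^ 4 / (Nat.factorial 4 : ℕ) := by norm_num [Nat.factorial]; ring
      _ ≤ _ := a3
  have hE : 16 * 2 ^ d1 * 3 ^ d2 * ((d2 : ℝ) + 1) * (d1 + 1) ^ 2 * exp (4 * log N / (d1 * d2))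
      ≤ exp ((3 * κ + ε) * u) := by
    calc _ ≤ 16 * (2 * exp (κ * u)) * (3 * exp (κ * u)) * ((d2 : ℝ) + 1) * (d1 + 1) ^ 2
          * exp (κ * u) := by gcongr
      _ = (96 * ((d2 : ℝ) + 1) * (d1 + 1) ^ 2) * (exp (κ * u) * exp (κ * u) * exp (κ * u)) := by
          ring
      _ ≤ exp (ε * u) * (exp (κ * u) * exp (κ * u) * exp (κ * u)) := by gcongr
      _ = _ := by rw [← exp_add, ← exp_add, ← exp_add]; congr 1; ring
  have hfin : (N : ℝ) ≤ r 8 N * exp ((3 * κ + ε) * u) :=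
    hs.trans (by gcongr)
  rw [neg_mul, exp_neg, ← div_eq_mul_inv, div_le_iff₀ (exp_pos _)]
  exact hfin

end Vale.Agent.P057R8
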